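import Vale.Agent.Lib.P348.helper23.Basics

/-!
# P348 (helper79, second copy of pool job 450): the top sector of an eigenspace

For two commuting Hermitian matrices `H`, `N` and an eigenvalue of `H` there is a unit joint
eigenvector whose `N`-eigenvalue is the largest one occurring on that eigenspace of `H`.
-/

namespace Vale.Agent.Lib.P348.H79

open Matrix
open Vale.Agent.Lib.P361 Vale.Agent.Lib.P348

theorem nsq_smul {n : Type*} [Fintype n] (c : ℂ) (φ : n → ℂ) :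
    nsq (c • φ) = ‖c‖ ^ 2 * nsq φ := by
  rw [nsq_def, nsq_def, Finset.mul_sum]
  refine Finset.sum_congr rfl (fun σ _ => ?_)
  rw [Pi.smul_apply, smul_eq_mul, norm_mul, mul_pow]

theorem nsq_pos {n : Type*} [Fintype n] (φ : n → ℂ) (hφ : φ ≠ 0) : 0 < nsq φ := by
  rw [nsq_def]
  obtain ⟨i, hi⟩ := Function.ne_iff.1 hφ
  refine Finset.sum_pos' (fun σ _ => by positivity) ⟨i, Finset.mem_univ i, ?_⟩
  have h : 0 < ‖φ i‖ := norm_pos_iff.2 hi
  positivity

theorem star_dotProduct_self {n : Type*} [Fintype n] (φ : n → ℂ) :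
    star φ ⬝ᵥ φ = ((nsq φ : ℝ) : ℂ) := by
  rw [nsq_def, dotProduct, Complex.ofReal_sum]
  refine Finset.sum_congr rfl (fun i _ => ?_)
  rw [Pi.star_apply, mul_comm, Complex.star_def, Complex.mul_conj, Complex.normSq_eq_norm_sq]

theorem real_of_hermitian_eigen {n : Type*} [Fintype n] (N : Matrix n n ℂ)
    (hN : N.IsHermitian) (φ : n → ℂ) (hφ : φ ≠ 0) (c : ℂ) (h : N *ᵥ φ = c • φ) :
    c = ((c.re : ℝ) : ℂ) := by
  have h1 := hN.im_star_dotProduct_mulVec_self φ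
  rw [h, dotProduct_smul, smul_eq_mul, star_dotProduct_self] at h1
  have h2 : c.im * nsq φ = 0 := by
    have h3 : (c * ((nsq φ : ℝ) : ℂ)).im = 0 := h1
    rw [Complex.mul_im, Complex.ofReal_re, Complex.ofReal_im, mul_zero, zero_add] at h3
    exact h3
  have h4 : c.im = 0 := by
    rcases mul_eq_zero.1 h2 with h5 | h5
    · exact h5
    · exact absurd h5 (nsq_pos φ hφ).ne'
  apply Complex.ext
  · simp
  · simp [h4]

theorem exists_top {n : Type*} [Fintype n] [DecidableEq n] (H N : Matrix n n ℂ)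
    (hH : H.IsHermitian) (hN : N.IsHermitian) (hHN : H * N = N * H) (k0 : n) :
    ∃ (Ω : n → ℂ) (m : ℝ), nsq Ω = 1 ∧ H *ᵥ Ω = (hH.eigenvalues k0 : ℂ) • Ω ∧
      N *ᵥ Ω = (m : ℂ) • Ω ∧
      ∀ (φ : n → ℂ) (m' : ℝ), φ ≠ 0 → H *ᵥ φ = (hH.eigenvalues k0 : ℂ) • φ →
        N *ᵥ φ = (m' : ℂ) • φ → m' ≤ m := by
  have hfin : {m' : ℝ | ∃ φ : n → ℂ, φ ≠ 0 ∧ H *ᵥ φ = (hH.eigenvalues k0 : ℂ) • φ ∧
      N *ᵥ φ = (m' : ℂ) • φ}.Finite := by
    have h1 : {μ : ℂ | Module.End.HasEigenvalue (Matrix.toLin' N) μ}.Finite :=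
      Module.End.finite_hasEigenvalue _
    refine (Set.Finite.preimage (Complex.ofReal_injective.injOn) h1).subset ?_
    rintro m' ⟨φ, hφ, -, hNφ⟩
    show Module.End.HasEigenvalue (Matrix.toLin' N) (m' : ℂ)
    refine Module.End.hasEigenvalue_of_hasEigenvector (x := φ) ⟨?_, hφ⟩
    rw [Module.End.mem_eigenspace_iff, Matrix.toLin'_apply, hNφ]
  have hne : {m' : ℝ | ∃ φ : n → ℂ, φ ≠ 0 ∧ H *ᵥ φ = (hH.eigenvalues k0 : ℂ) • φ ∧
      N *ᵥ φ = (m' : ℂ) • φ}.Nonempty := by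
    have hGN : ∀ x ∈ Module.End.eigenspace (Matrix.toLin' H) (hH.eigenvalues k0 : ℂ),
        Matrix.toLin' N x ∈ Module.End.eigenspace (Matrix.toLin' H) (hH.eigenvalues k0 : ℂ) := by
      intro x hx
      rw [Module.End.mem_eigenspace_iff] at hx ⊢
      rw [Matrix.toLin'_apply] at hx
      rw [Matrix.toLin'_apply, Matrix.toLin'_apply, Matrix.mulVec_mulVec, hHN,
        ← Matrix.mulVec_mulVec, hx, Matrix.mulVec_smul]
    have hGne : Module.End.eigenspace (Matrix.toLin' H) (hH.eigenvalues k0 : ℂ) ≠ ⊥ := by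
      intro hbot
      have hmem : (⇑(hH.eigenvectorBasis k0) : n → ℂ)
          ∈ Module.End.eigenspace (Matrix.toLin' H) (hH.eigenvalues k0 : ℂ) := by
        rw [Module.End.mem_eigenspace_iff, Matrix.toLin'_apply, hH.mulVec_eigenvectorBasis k0]
        exact RCLike.real_smul_eq_coe_smul (K := ℂ) _ _
      rw [hbot, Submodule.mem_bot] at hmem
      have hnz : hH.eigenvectorBasis k0 ≠ 0 := hH.eigenvectorBasis.orthonormal.ne_zero k0
      apply hnz
      ext i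
      exact congrFun hmem i
    have : Nontrivial (Module.End.eigenspace (Matrix.toLin' H) (hH.eigenvalues k0 : ℂ)) :=
      Submodule.nontrivial_iff_ne_bot.2 hGne
    obtain ⟨c, hc⟩ := Module.End.exists_eigenvalue ((Matrix.toLin' N).restrict hGN)
    obtain ⟨v, hv⟩ := hc.exists_hasEigenvector
    have hv1 : ((Matrix.toLin' N).restrict hGN) v = c • v := Module.End.mem_eigenspace_iff.1 hv.1
    have hNv : N *ᵥ (v : n → ℂ) = c • (v : n → ℂ) := by
      have h2 := congrArg Subtype.val hv1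
      rw [LinearMap.coe_restrict_apply, Matrix.toLin'_apply] at h2
      exact h2
    have hv0 : (v : n → ℂ) ≠ 0 := fun h => hv.2 (Subtype.ext h)
    have hHv : H *ᵥ (v : n → ℂ) = (hH.eigenvalues k0 : ℂ) • (v : n → ℂ) := by
      have h2 := Module.End.mem_eigenspace_iff.1 v.2
      rw [Matrix.toLin'_apply] at h2
      exact h2
    have hcre := real_of_hermitian_eigen N hN v hv0 c hNv
    refine ⟨c.re, v, hv0, hHv, ?_⟩
    rw [← hcre]
    exact hNv
  obtain ⟨m, hmS, hmax⟩ : ∃ m ∈ {m' : ℝ | ∃ φ : n → ℂ, φ ≠ 0 ∧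
      H *ᵥ φ = (hH.eigenvalues k0 : ℂ) • φ ∧ N *ᵥ φ = (m' : ℂ) • φ},
      ∀ m' ∈ {m' : ℝ | ∃ φ : n → ℂ, φ ≠ 0 ∧
        H *ᵥ φ = (hH.eigenvalues k0 : ℂ) • φ ∧ N *ᵥ φ = (m' : ℂ) • φ}, m' ≤ m := by
    have hne' : hfin.toFinset.Nonempty := by
      obtain ⟨x, hx⟩ := hne
      exact ⟨x, hfin.mem_toFinset.2 hx⟩
    refine ⟨hfin.toFinset.max' hne', hfin.mem_toFinset.1 (Finset.max'_mem _ _),
      fun m' hm' => ?_⟩
    exact Finset.le_max' _ _ (hfin.mem_toFinset.2 hm')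
  obtain ⟨φ0, hφ0, hHφ0, hNφ0⟩ := hmS
  have hs : 0 < nsq φ0 := nsq_pos φ0 hφ0
  refine ⟨(((Real.sqrt (nsq φ0))⁻¹ : ℝ) : ℂ) • φ0, m, ?_, ?_, ?_, ?_⟩
  · rw [nsq_smul, Complex.norm_real, Real.norm_eq_abs, sq_abs, inv_pow, Real.sq_sqrt hs.le,
      inv_mul_cancel₀ hs.ne']
  · rw [Matrix.mulVec_smul, hHφ0, smul_comm]
  · rw [Matrix.mulVec_smul, hNφ0, smul_comm]
  · intro φ m' hφ hHφ hNφ
    exact hmax m' ⟨φ, hφ, hHφ, hNφ⟩

end Vale.Agent.Lib.P348.H79
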